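import Vale.Agent.Lib.P154.AFSound
import Vale.Agent.Lib.P154.SN.Prog

/-! Real values of the programs. -/

namespace Vale.Agent.Lib.P154

namespace SN

lemma evR_lc {x y : Ex} {env : List ℝ} {v r : ℝ} (h1 : Ex.evR x env = v) (h2 : Ex.evR y (v :: env) = r) :
    Ex.evR (Ex.l x y) env = r := by
  subst h1; subst h2; rfl

/-- Upper bound polynomial for the quartic coefficient. -/
noncomputable def AbF (x y : ℝ) : ℝ := ((((((((((((((((((((rv 281475007634624 * y) + rv 281474985956000) * y) + rv 281474967620576) * y) + rv 281474965977488) * y) + rv 281474971245856) * y) + rv 281474975746992) * x) + ((((((((((rv 281475119608512 * y) + rv 281475068286720) * y) + rv 281474994829616) * y) + rv 281474986146384) * y) + rv 281474981180624) * y) + rv 281474977262480)) * x) + ((((((((((rv 281474994743088 * y) + rv 281474995995248) * y) + rv 281474988133520) * y) + rv 281474987345232) * y) + rv 281474983057312) * y) + rv 281474977981024)) * x) + ((((((((((rv 281474901355488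 * y) + rv 281474928231936) * y) + rv 281474966920272) * y) + rv 281474972261888) * y) + rv 281474975058064) * y) + rv 281474976611504)) * x) + ((((((((((rv 281475025312704 * y) + rv 281475009081248) * y) + rv 281474984879472) * y) + rv 281474982711904) * y) + rv 281474978815936) * y) + rv 281474978371168)) * x) + ((((((((((rv 281474985830368 * y) + rv 281474984737552) * y) + rv 281474981032528) * y) + rv 281474985846128) * y) + rv 281474980157984) * y) + rv 281474993478912))

/-- Upper bound polynomial for the quadratic coefficient. -/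
noncomputable def BbF (x y : ℝ) : ℝ := ((((((((((((((((((((((((((((rv 281472399569984 * y) + rv 281473759218128) * y) + rv 281475344120336) * y) + rv 281475131926320) * y) + rv 281474904043136) * y) + rv 281474930514608) * y) + rv 281474866330416) * y) + rv 281474933659504) * x) + ((((((((((((((rv 281473400763872 * y) + rv 281474372602864) * y) + rv 281475399835488) * y) + rv 281475245334784) * y) + rv 281475060524240) * y) + rv 281475010240608) * y) + rv 281475041555008) * y) + rv 281475001209664)) * x) + ((((((((((((((rv 281476124074512 * y) + rv 281475530288640) * y) + rv 281474873189504) * y) + rv 281475036868688) * y) + rv 281475140210928) * y) + rv 281475064487904) * y) + rv 281475156670624) * y) + rv 281475045594160)) * x) + ((((((((((((((rv 281473470707216 * y) + rv 281473725865488) * y) + rv 281474557300944) * y) + rv 281474714722368) * y) + rv 281474774070368) * y) + rv 281474890045616) * y) + rv 281474751164880) * y) + rv 281474887941040)) * x)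 + ((((((((((((((rv 281475119762160 * y) + rv 281475099097952) * y) + rv 281474982090448) * y) + rv 281474944210160) * y) + rv 281474996076704) * y) + rv 281475015828608) * y) + rv 281475055538256) * y) + rv 281475005208000)) * x) + ((((((((((((((rv 281475699864944 * y) + rv 281475545668720) * y) + rv 281475030076608) * y) + rv 281475041367072) * y) + rv 281475025638512) * y) + rv 281475004811216) * y) + rv 281475143467632) * y) + rv 281475042905120)) * x) + ((((((((((((((rv 281472382907040 * y) + rv 281473282306960) * y) + rv 281474667144928) * y) + rv 281474789461520) * y) + rv 281474628659968) * y) + rv 281474773766096) * y) + rv 281474660109120) * y) + rv 281474861011344)) * x) + ((((((((((((((rv 281476352177568 * y) + rv 281475897203760) * y) + rv 281475083944032) * y) + rv 281475080332304) * y) + rv 281475078152768) * y) + rv 281475103161808) * y) + rv 281474980318176) * y) + rv 281475057999856))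

/-- Value of h. -/
noncomputable def ch (r b l u : ℝ) : ℝ := ((b * b) - b)

/-- Value of g. -/
noncomputable def cg (r b l u : ℝ) : ℝ := (ch r b l u + rv 281475245146112)

/-- Value of g2. -/
noncomputable def cg2 (r b l u : ℝ) : ℝ := (cg r b l u * cg r b l u)

/-- Value of g3. -/
noncomputable def cg3 (r b l u : ℝ) : ℝ := (cg2 r b l u * cg r b l u)

/-- Value of g4. -/
noncomputable def cg4 (r b l u : ℝ) : ℝ := (cg3 r b l u * cg r b l u)

/-- Value of g5. -/
noncomputable def cg5 (r b l u : ℝ) : ℝ := (cg4 r b l u * cg r b l u)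

/-- Value of g6. -/
noncomputable def cg6 (r b l u : ℝ) : ℝ := (cg5 r b l u * cg r b l u)

/-- Value of g7. -/
noncomputable def cg7 (r b l u : ℝ) : ℝ := (cg6 r b l u * cg r b l u)

/-- Value of g8. -/
noncomputable def cg8 (r b l u : ℝ) : ℝ := (cg7 r b l u * cg r b l u)

/-- Value of g9. -/
noncomputable def cg9 (r b l u : ℝ) : ℝ := (cg8 r b l u * cg r b l u)

/-- Value of h2. -/
noncomputable def ch2 (r b l u : ℝ) : ℝ := (ch r b l u * ch r b l u)

/-- Value of h3. -/
noncomputable def ch3 (r b l u : ℝ) : ℝ := (ch2 r b l u * ch r b l u)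

/-- Value of h4. -/
noncomputable def ch4 (r b l u : ℝ) : ℝ := (ch3 r b l u * ch r b l u)

/-- Value of h5. -/
noncomputable def ch5 (r b l u : ℝ) : ℝ := (ch4 r b l u * ch r b l u)

/-- Value of h6. -/
noncomputable def ch6 (r b l u : ℝ) : ℝ := (ch5 r b l u * ch r b l u)

/-- Value of Mt. -/
noncomputable def cMt (r b l u : ℝ) : ℝ := ((((((((((((((((((((((((((((((((rv 281474976897280 * ch6 r b l u) + (rv 281474977139200 * (cg3 r b l u * ch4 r b l u))) + (rv 281474982952192 * (cg6 r b l u * ch2 r b l u))) + (rv 281474976636928 * cg9 r b l u)) * r) + (((rv 281474981936128 * (cg r b l u * ch5 r b l u)) + (rv 281475021756160 * (cg4 r b l u * ch3 r b l u))) + (rv 281474991661312 * (cg7 r b l u * ch r b l u)))) * r) + (((rv 281475063553024 * (cg2 r b l u * ch4 r b l u)) + (rv 281475262452736 * (cg5 r b l u * ch2 r b l u))) + (rv 281474983636480 * cg8 r b l u))) * r) + (((rv 281474987534848 * ch5 r b l u) + (rv 281476284170752 * (cg3 r b l u * ch3 r b l u))) +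 (rv 281475431022592 * (cg6 r b l u * ch r b l u)))) * r) + (((rv 281476175209984 * (cg r b l u * ch4 r b l u)) + (rv 281479346905600 * (cg4 r b l u * ch2 r b l u))) + (rv 281475152109568 * cg7 r b l u))) * r) + ((rv 281482904000512 * (cg2 r b l u * ch3 r b l u)) + (rv 281479280052736 * (cg5 r b l u * ch r b l u)))) * r) + (((rv 281479422094336 * ch4 r b l u) + (rv 281490470566912 * (cg3 r b l u * ch2 r b l u))) + (rv 281476390435840 * cg6 r b l u))) * r) + ((rv 281489334068224 * (cg r b l u * ch3 r b l u)) + (rv 281487128753152 * (cg4 r b l u * ch r b l u)))) * r) + ((rv 281496186155008 * (cg2 r b l u * ch2 r b l u)) + (rv 281478570674176 * cg5 r b l u))) * r) + ((rv 281482792710400 * ch3 r b l u) + (rv 281490354562816 * (cg3 r b l u * ch r b l u)))) * r) + ((rv 281490170143744 * (cg r b l u * ch2 r b l u)) + (rv 281478352248064 * cg4 r b l u))) * r) + (rv 281483077187584 * (cg2 r b l u * ch r b l u))) * r) + ((rv 281479809152512 * ch2 r b l u) + (rv 281475860368384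 * cg3 r b l u))) * r) + (rv 281476189766656 * (cg r b l u * ch r b l u))) * r) + (rv 281475029214208 * cg2 r b l u))

/-- Value of st. -/
noncomputable def cst (r b l u : ℝ) : ℝ := ((((((((((((((((rv 281475782017024 * ch3 r b l u) + (rv 281477392629760 * (cg3 r b l u * ch r b l u))) * r) + ((rv 281494304063488 * (cg r b l u * ch2 r b l u)) + (rv 281479808548864 * cg4 r b l u))) * r) + (rv 281542622445568 * (cg2 r b l u * ch r b l u))) * r) + ((rv 281542622445568 * ch2 r b l u) + (rv 281520073867264 * cg3 r b l u))) * r) + (rv 281644091047936 * (cg r b l u * ch r b l u))) * r) + (rv 281542622445568 * cg2 r b l u)) * r) + (rv 281542622445568 * ch r b l u)) * r) + (rv 281494304063488 * cg r b l u))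

/-- Value of ts. -/
noncomputable def cts (r b l u : ℝ) : ℝ := (r * cst r b l u)

/-- Value of S. -/
noncomputable def cS (r b l u : ℝ) : ℝ := (rv 281475782017024 + (r * cts r b l u))

/-- Value of y0. -/
noncomputable def cy0 (r b l u : ℝ) : ℝ := (rv 281475245146112 + (r * b))

/-- Value of y1. -/
noncomputable def cy1 (r b l u : ℝ) : ℝ := (rv 281475245146112 + (r * (rv 281475245146112 - b)))

/-- Value of y2. -/
noncomputable def cy2 (r b l u : ℝ) : ℝ := (rv 281475245146112 - r)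

/-- Value of D0. -/
noncomputable def cD0 (r b l u : ℝ) : ℝ := ((((((((((((((((rv 281475245146112 * cy0 r b l u) + rv 281475245146112) * cy0 r b l u) + rv 281475245146112) * cy0 r b l u) + rv 281475245146112) * cy0 r b l u) + rv 281475245146112) * cy0 r b l u) + rv 281475245146112) * cy0 r b l u) + rv 281475245146112) * cy0 r b l u) + rv 281475245146112) * cy0 r b l u) + rv 281475245146112)

/-- Value of D1. -/
noncomputable def cD1 (r b l u : ℝ) : ℝ := ((((((((((((((((rv 281475245146112 * cy1 r b l u) + rv 281475245146112) * cy1 r b l u) + rv 281475245146112) * cy1 r b l u) + rv 281475245146112) * cy1 r b l u) + rv 281475245146112) * cy1 r b l u) + rv 281475245146112) * cy1 r b l u) + rv 281475245146112) * cy1 r b l u) + rv 281475245146112) * cy1 r b l u) + rv 281475245146112)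

/-- Value of D2. -/
noncomputable def cD2 (r b l u : ℝ) : ℝ := ((((((((((((((((rv 281475245146112 * cy2 r b l u) + rv 281475245146112) * cy2 r b l u) + rv 281475245146112) * cy2 r b l u) + rv 281475245146112) * cy2 r b l u) + rv 281475245146112) * cy2 r b l u) + rv 281475245146112) * cy2 r b l u) + rv 281475245146112) * cy2 r b l u) + rv 281475245146112) * cy2 r b l u) + rv 281475245146112)

/-- Value of P0. -/
noncomputable def cP0 (r b l u : ℝ) : ℝ := ((rv 281475782017024 * (b * cD0 r b l u)) - cts r b l u)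

/-- Value of P1. -/
noncomputable def cP1 (r b l u : ℝ) : ℝ := ((rv 281475782017024 * ((rv 281475245146112 - b) * cD1 r b l u)) - cts r b l u)

/-- Value of Pt. -/
noncomputable def cPt (r b l u : ℝ) : ℝ := ((rv 281475782017024 * cD2 r b l u) + cts r b l u)

/-- Value of n0. -/
noncomputable def cn0 (r b l u : ℝ) : ℝ := (rv 281474977759232 * cP0 r b l u)

/-- Value of n1. -/
noncomputable def cn1 (r b l u : ℝ) : ℝ := (rv 281474977759232 * cP1 r b l u)

/-- Value of n2. -/
noncomputable def cn2 (r b l u : ℝ) : ℝ := (rv 281474977759232 * cPt r b l u)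

/-- Value of Nn. -/
noncomputable def cNn (r b l u : ℝ) : ℝ := (rv 281543696187392 * (((cn0 r b l u * cn0 r b l u) + (cn1 r b l u * cn1 r b l u)) + (cn2 r b l u * cn2 r b l u)))

/-- Value of iS. -/
noncomputable def ciS (r b l u : ℝ) : ℝ := (cS r b l u)⁻¹

/-- Value of Xv. -/
noncomputable def cXv (r b l u : ℝ) : ℝ := ((r * r) * (rv 281543696187392 * (cNn r b l u * (ciS r b l u * ciS r b l u))))

/-- Value of aq. -/
noncomputable def caq (r b l u : ℝ) : ℝ := (cPt r b l u * (cP0 r b l u)⁻¹)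

/-- Value of tq. -/
noncomputable def ctq (r b l u : ℝ) : ℝ := (l * (r * (cP0 r b l u * ciS r b l u)))

/-- Value of x4. -/
noncomputable def cx4 (r b l u : ℝ) : ℝ := (caq r b l u - rv 281475312254976)

/-- Value of y4. -/
noncomputable def cy4 (r b l u : ℝ) : ℝ := (ctq r b l u - rv 281475089956864)

/-- Value of Ab4. -/
noncomputable def cAb4 (r b l u : ℝ) : ℝ := AbF (cx4 r b l u) (cy4 r b l u)

/-- Value of Bb4. -/
noncomputable def cBb4 (r b l u : ℝ) : ℝ := BbF (cx4 r b l u) (cy4 r b l u)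

/-- Value of Bq4. -/
noncomputable def cBq4 (r b l u : ℝ) : ℝ := (cBb4 r b l u * cBb4 r b l u)

/-- Value of Lq4. -/
noncomputable def cLq4 (r b l u : ℝ) : ℝ := (l * l)

/-- Value of rhs4. -/
noncomputable def crhs4 (r b l u : ℝ) : ℝ := (((cLq4 r b l u * cAb4 r b l u) + ((rv 281475034122496 * (rv 281475245146112 - cLq4 r b l u)) * cBq4 r b l u)) + rv 281474976776192)

/-- Value of the program K4c. -/
noncomputable def RK4c (r b l u : ℝ) : ℝ := ((cMt r b l u * (cS r b l u * cS r b l u)) - ((cNn r b l u * cNn r b l u) * crhs4 r b l u))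

set_option maxRecDepth 100000 in
theorem evR_K4c (r b l u : ℝ) : Ex.evR K4c [r, b, l, u] = RK4c r b l u :=
  evR_lc (v := ch r b l u) rfl (evR_lc (v := cg r b l u) rfl (evR_lc (v := cg2 r b l u) rfl (evR_lc (v := cg3 r b l u) rfl (evR_lc (v := cg4 r b l u) rfl (evR_lc (v := cg5 r b l u) rfl (evR_lc (v := cg6 r b l u) rfl (evR_lc (v := cg7 r b l u) rfl (evR_lc (v := cg8 r b l u) rfl (evR_lc (v := cg9 r b l u) rfl (evR_lc (v := ch2 r b l u) rfl (evR_lc (v := ch3 r b l u) rfl (evR_lc (v := ch4 r b l u) rfl (evR_lc (v := ch5 r b l u) rfl (evR_lc (v := ch6 r b l u) rfl (evR_lc (v := cMt r b l u) rfl (evR_lc (v := cst r b l u) rfl (evR_lc (v := cts r b l u) rfl (evR_lc (v := cS r b l u) rfl (evR_lc (v := cy0 r b l u) rfl (evR_lc (v := cy1 r b l u) rfl (evR_lc (v := cy2 r b l u) rfl (evR_lc (v := cD0 r b l u) rfl (evR_lc (v := cD1 r b l u) rfl (evR_lc (v := cD2 r b l u) rfl (evR_lc (v := cP0 r b l u) rfl (evR_lc (v := cP1 r b l u) rfl (evR_lc (v := cPt r b l u)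 rfl (evR_lc (v := cn0 r b l u) rfl (evR_lc (v := cn1 r b l u) rfl (evR_lc (v := cn2 r b l u) rfl (evR_lc (v := cNn r b l u) rfl (evR_lc (v := ciS r b l u) rfl (evR_lc (v := cXv r b l u) rfl (evR_lc (v := caq r b l u) rfl (evR_lc (v := ctq r b l u) rfl (evR_lc (v := cx4 r b l u) rfl (evR_lc (v := cy4 r b l u) rfl (evR_lc (v := cAb4 r b l u) rfl (evR_lc (v := cBb4 r b l u) rfl (evR_lc (v := cBq4 r b l u) rfl (evR_lc (v := cLq4 r b l u) rfl (evR_lc (v := crhs4 r b l u) rfl (rfl)))))))))))))))))))))))))))))))))))))))))))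

/-- Value of a2. -/
noncomputable def fa2 (r b l u : ℝ) : ℝ := (r * r)

/-- Value of a3. -/
noncomputable def fa3 (r b l u : ℝ) : ℝ := (fa2 r b l u * r)

/-- Value of a4. -/
noncomputable def fa4 (r b l u : ℝ) : ℝ := (fa3 r b l u * r)

/-- Value of a5. -/
noncomputable def fa5 (r b l u : ℝ) : ℝ := (fa4 r b l u * r)

/-- Value of a6. -/
noncomputable def fa6 (r b l u : ℝ) : ℝ := (fa5 r b l u * r)

/-- Value of a7. -/
noncomputable def fa7 (r b l u : ℝ) : ℝ := (fa6 r b l u * r)

/-- Value of a8. -/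
noncomputable def fa8 (r b l u : ℝ) : ℝ := (fa7 r b l u * r)

/-- Value of a9. -/
noncomputable def fa9 (r b l u : ℝ) : ℝ := (fa8 r b l u * r)

/-- Value of b2. -/
noncomputable def fb2 (r b l u : ℝ) : ℝ := (b * b)

/-- Value of b3. -/
noncomputable def fb3 (r b l u : ℝ) : ℝ := (fb2 r b l u * b)

/-- Value of b4. -/
noncomputable def fb4 (r b l u : ℝ) : ℝ := (fb3 r b l u * b)

/-- Value of b5. -/
noncomputable def fb5 (r b l u : ℝ) : ℝ := (fb4 r b l u * b)

/-- Value of b6. -/
noncomputable def fb6 (r b l u : ℝ) : ℝ := (fb5 r b l u * b)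

/-- Value of b7. -/
noncomputable def fb7 (r b l u : ℝ) : ℝ := (fb6 r b l u * b)

/-- Value of b8. -/
noncomputable def fb8 (r b l u : ℝ) : ℝ := (fb7 r b l u * b)

/-- Value of b9. -/
noncomputable def fb9 (r b l u : ℝ) : ℝ := (fb8 r b l u * b)

/-- Value of S. -/
noncomputable def fS (r b l u : ℝ) : ℝ := ((rv 281475245146112 + fa9 r b l u) + fb9 r b l u)

/-- Value of m1. -/
noncomputable def fm1 (r b l u : ℝ) : ℝ := ((((((fa4 r b l u * b) + (r * fb4 r b l u)) + (fa4 r b l u * b)) + (r * fb4 r b l u)) + (fa4 r b l u * fb4 r b l u)) + (fa4 r b l u * fb4 r b l u))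

/-- Value of m2. -/
noncomputable def fm2 (r b l u : ℝ) : ℝ := (((((fa4 r b l u + fb4 r b l u) + fa5 r b l u) + fb5 r b l u) + (fa5 r b l u * fb4 r b l u)) + (fa4 r b l u * fb5 r b l u))

/-- Value of mp. -/
noncomputable def fmp (r b l u : ℝ) : ℝ := ((((((fa3 r b l u * fb3 r b l u) + (fa3 r b l u * fb3 r b l u)) + (fa3 r b l u * fb3 r b l u)) + (fa3 r b l u * fb3 r b l u)) + (fa3 r b l u * fb3 r b l u)) + (fa3 r b l u * fb3 r b l u))

/-- Value of Lp. -/
noncomputable def fLp (r b l u : ℝ) : ℝ := ((((rv 281478986465280 * fS r b l u) - (rv 281484715884544 * fm1 r b l u)) - (rv 281475429695488 * fm2 r b l u)) + (rv 281483163992064 * fmp r b l u))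

/-- Value of P0. -/
noncomputable def fP0 (r b l u : ℝ) : ℝ := (rv 281475782017024 - fS r b l u)

/-- Value of P1. -/
noncomputable def fP1 (r b l u : ℝ) : ℝ := ((rv 281475782017024 * fa9 r b l u) - fS r b l u)

/-- Value of Pt. -/
noncomputable def fPt (r b l u : ℝ) : ℝ := (fS r b l u - (rv 281475782017024 * fb9 r b l u))

/-- Value of Nx. -/
noncomputable def fNx (r b l u : ℝ) : ℝ := (((fP0 r b l u * fP0 r b l u) + (fP1 r b l u * fP1 r b l u)) + (fPt r b l u * fPt r b l u))

/-- Value of M. -/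
noncomputable def fM (r b l u : ℝ) : ℝ := ((fS r b l u * fLp r b l u) - fNx r b l u)

/-- Value of iS. -/
noncomputable def fiS (r b l u : ℝ) : ℝ := (fS r b l u)⁻¹

/-- Value of Xv. -/
noncomputable def fXv (r b l u : ℝ) : ℝ := (fNx r b l u * (fiS r b l u * fiS r b l u))

/-- Value of aq. -/
noncomputable def faq (r b l u : ℝ) : ℝ := (fPt r b l u * (fP0 r b l u)⁻¹)

/-- Value of tq. -/
noncomputable def ftq (r b l u : ℝ) : ℝ := (l * (fP0 r b l u * fiS r b l u))

/-- Value of x4. -/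
noncomputable def fx4 (r b l u : ℝ) : ℝ := (faq r b l u - rv 281475312254976)

/-- Value of y4. -/
noncomputable def fy4 (r b l u : ℝ) : ℝ := (ftq r b l u - rv 281475089956864)

/-- Value of Ab4. -/
noncomputable def fAb4 (r b l u : ℝ) : ℝ := AbF (fx4 r b l u) (fy4 r b l u)

/-- Value of Bb4. -/
noncomputable def fBb4 (r b l u : ℝ) : ℝ := BbF (fx4 r b l u) (fy4 r b l u)

/-- Value of Bq4. -/
noncomputable def fBq4 (r b l u : ℝ) : ℝ := (fBb4 r b l u * fBb4 r b l u)

/-- Value of Lq4. -/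
noncomputable def fLq4 (r b l u : ℝ) : ℝ := (l * l)

/-- Value of rhs4. -/
noncomputable def frhs4 (r b l u : ℝ) : ℝ := (((fLq4 r b l u * fAb4 r b l u) + ((rv 281475034122496 * (rv 281475245146112 - fLq4 r b l u)) * fBq4 r b l u)) + rv 281474976776192)

/-- Value of the program K4f. -/
noncomputable def RK4f (r b l u : ℝ) : ℝ := ((fM r b l u * (fS r b l u * fS r b l u)) - ((fNx r b l u * fNx r b l u) * frhs4 r b l u))

set_option maxRecDepth 100000 in
theorem evR_K4f (r b l u : ℝ) : Ex.evR K4f [r, b, l, u] = RK4f r b l u :=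
  evR_lc (v := fa2 r b l u) rfl (evR_lc (v := fa3 r b l u) rfl (evR_lc (v := fa4 r b l u) rfl (evR_lc (v := fa5 r b l u) rfl (evR_lc (v := fa6 r b l u) rfl (evR_lc (v := fa7 r b l u) rfl (evR_lc (v := fa8 r b l u) rfl (evR_lc (v := fa9 r b l u) rfl (evR_lc (v := fb2 r b l u) rfl (evR_lc (v := fb3 r b l u) rfl (evR_lc (v := fb4 r b l u) rfl (evR_lc (v := fb5 r b l u) rfl (evR_lc (v := fb6 r b l u) rfl (evR_lc (v := fb7 r b l u) rfl (evR_lc (v := fb8 r b l u) rfl (evR_lc (v := fb9 r b l u) rfl (evR_lc (v := fS r b l u) rfl (evR_lc (v := fm1 r b l u) rfl (evR_lc (v := fm2 r b l u) rfl (evR_lc (v := fmp r b l u) rfl (evR_lc (v := fLp r b l u) rfl (evR_lc (v := fP0 r b l u) rfl (evR_lc (v := fP1 r b l u) rfl (evR_lc (v := fPt r b l u) rfl (evR_lc (v := fNx r b l u) rfl (evR_lc (v := fM r b l u) rfl (evR_lc (v := fiS r b l u) rfl (evR_lc (v := fXv r b l u) rfl (evR_lc (v := faq r b l u) rfl (evR_lc (v := ftq r b l u) rfl (evR_lc (v := fx4 r b l u) rfl (evR_lc (v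 := fy4 r b l u) rfl (evR_lc (v := fAb4 r b l u) rfl (evR_lc (v := fBb4 r b l u) rfl (evR_lc (v := fBq4 r b l u) rfl (evR_lc (v := fLq4 r b l u) rfl (evR_lc (v := frhs4 r b l u) rfl (rfl)))))))))))))))))))))))))))))))))))))

/-- Value of x5. -/
noncomputable def cx5 (r b l u : ℝ) : ℝ := (caq r b l u - rv 281475312254976)

/-- Value of y5. -/
noncomputable def cy5 (r b l u : ℝ) : ℝ := (ctq r b l u - rv 281475089956864)

/-- Value of Ab5. -/
noncomputable def cAb5 (r b l u : ℝ) : ℝ := AbF (cx5 r b l u) (cy5 r b l u)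

/-- Value of Bb5. -/
noncomputable def cBb5 (r b l u : ℝ) : ℝ := BbF (cx5 r b l u) (cy5 r b l u)

/-- Value of Bq5. -/
noncomputable def cBq5 (r b l u : ℝ) : ℝ := (cBb5 r b l u * cBb5 r b l u)

/-- Value of Lq5. -/
noncomputable def cLq5 (r b l u : ℝ) : ℝ := (l * l)

/-- Value of bt5. -/
noncomputable def cbt5 (r b l u : ℝ) : ℝ := ((rv 281474997682176 * cLq5 r b l u) + (rv 281475085238272 * (rv 281475245146112 - (rv 281475513581568 * cLq5 r b l u))))

/-- Value of dn5. -/
noncomputable def cdn5 (r b l u : ℝ) : ℝ := (rv 281475245146112 + (cbt5 r b l u * (cBb5 r b l u * cXv r b l u)))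

/-- Value of rhs5. -/
noncomputable def crhs5 (r b l u : ℝ) : ℝ := (((cLq5 r b l u * cAb5 r b l u) + ((rv 281475034122496 * (rv 281475245146112 - cLq5 r b l u)) * (cBq5 r b l u * (cdn5 r b l u)⁻¹))) + rv 281474976776192)

/-- Value of the program K5c. -/
noncomputable def RK5c (r b l u : ℝ) : ℝ := ((cMt r b l u * (cS r b l u * cS r b l u)) - ((cNn r b l u * cNn r b l u) * crhs5 r b l u))

set_option maxRecDepth 100000 in
theorem evR_K5c (r b l u : ℝ) : Ex.evR K5c [r, b, l, u] = RK5c r b l u :=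
  evR_lc (v := ch r b l u) rfl (evR_lc (v := cg r b l u) rfl (evR_lc (v := cg2 r b l u) rfl (evR_lc (v := cg3 r b l u) rfl (evR_lc (v := cg4 r b l u) rfl (evR_lc (v := cg5 r b l u) rfl (evR_lc (v := cg6 r b l u) rfl (evR_lc (v := cg7 r b l u) rfl (evR_lc (v := cg8 r b l u) rfl (evR_lc (v := cg9 r b l u) rfl (evR_lc (v := ch2 r b l u) rfl (evR_lc (v := ch3 r b l u) rfl (evR_lc (v := ch4 r b l u) rfl (evR_lc (v := ch5 r b l u) rfl (evR_lc (v := ch6 r b l u) rfl (evR_lc (v := cMt r b l u) rfl (evR_lc (v := cst r b l u) rfl (evR_lc (v := cts r b l u) rfl (evR_lc (v := cS r b l u) rfl (evR_lc (v := cy0 r b l u) rfl (evR_lc (v := cy1 r b l u) rfl (evR_lc (v := cy2 r b l u) rfl (evR_lc (v := cD0 r b l u) rfl (evR_lc (v := cD1 r b l u) rfl (evR_lc (v := cD2 r b l u) rfl (evR_lc (v := cP0 r b l u) rfl (evR_lc (v := cP1 r b l u) rfl (evR_lc (v := cPt r b l u) rfl (evR_lc (v := cn0 r b l u) rfl (evR_lc (v := cn1 r b l u) rfl (evR_lc (v := cn2 r b l u) rfl (evR_lc (v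 := cNn r b l u) rfl (evR_lc (v := ciS r b l u) rfl (evR_lc (v := cXv r b l u) rfl (evR_lc (v := caq r b l u) rfl (evR_lc (v := ctq r b l u) rfl (evR_lc (v := cx5 r b l u) rfl (evR_lc (v := cy5 r b l u) rfl (evR_lc (v := cAb5 r b l u) rfl (evR_lc (v := cBb5 r b l u) rfl (evR_lc (v := cBq5 r b l u) rfl (evR_lc (v := cLq5 r b l u) rfl (evR_lc (v := cbt5 r b l u) rfl (evR_lc (v := cdn5 r b l u) rfl (evR_lc (v := crhs5 r b l u) rfl (rfl)))))))))))))))))))))))))))))))))))))))))))))

/-- Value of x5. -/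
noncomputable def fx5 (r b l u : ℝ) : ℝ := (faq r b l u - rv 281475312254976)

/-- Value of y5. -/
noncomputable def fy5 (r b l u : ℝ) : ℝ := (ftq r b l u - rv 281475089956864)

/-- Value of Ab5. -/
noncomputable def fAb5 (r b l u : ℝ) : ℝ := AbF (fx5 r b l u) (fy5 r b l u)

/-- Value of Bb5. -/
noncomputable def fBb5 (r b l u : ℝ) : ℝ := BbF (fx5 r b l u) (fy5 r b l u)

/-- Value of Bq5. -/
noncomputable def fBq5 (r b l u : ℝ) : ℝ := (fBb5 r b l u * fBb5 r b l u)

/-- Value of Lq5. -/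
noncomputable def fLq5 (r b l u : ℝ) : ℝ := (l * l)

/-- Value of bt5. -/
noncomputable def fbt5 (r b l u : ℝ) : ℝ := ((rv 281474997682176 * fLq5 r b l u) + (rv 281475085238272 * (rv 281475245146112 - (rv 281475513581568 * fLq5 r b l u))))

/-- Value of dn5. -/
noncomputable def fdn5 (r b l u : ℝ) : ℝ := (rv 281475245146112 + (fbt5 r b l u * (fBb5 r b l u * fXv r b l u)))

/-- Value of rhs5. -/
noncomputable def frhs5 (r b l u : ℝ) : ℝ := (((fLq5 r b l u * fAb5 r b l u) + ((rv 281475034122496 * (rv 281475245146112 - fLq5 r b l u)) * (fBq5 r b l u * (fdn5 r b l u)⁻¹))) + rv 281474976776192)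

/-- Value of the program K5f. -/
noncomputable def RK5f (r b l u : ℝ) : ℝ := ((fM r b l u * (fS r b l u * fS r b l u)) - ((fNx r b l u * fNx r b l u) * frhs5 r b l u))

set_option maxRecDepth 100000 in
theorem evR_K5f (r b l u : ℝ) : Ex.evR K5f [r, b, l, u] = RK5f r b l u :=
  evR_lc (v := fa2 r b l u) rfl (evR_lc (v := fa3 r b l u) rfl (evR_lc (v := fa4 r b l u) rfl (evR_lc (v := fa5 r b l u) rfl (evR_lc (v := fa6 r b l u) rfl (evR_lc (v := fa7 r b l u) rfl (evR_lc (v := fa8 r b l u) rfl (evR_lc (v := fa9 r b l u) rfl (evR_lc (v := fb2 r b l u) rfl (evR_lc (v := fb3 r b l u) rfl (evR_lc (v := fb4 r b l u) rfl (evR_lc (v := fb5 r b l u) rfl (evR_lc (v := fb6 r b l u) rfl (evR_lc (v := fb7 r b l u) rfl (evR_lc (v := fb8 r b l u) rfl (evR_lc (v := fb9 r b l u) rfl (evR_lc (v := fS r b l u) rfl (evR_lc (v := fm1 r b l u) rfl (evR_lc (v := fm2 r b l u) rfl (evR_lc (v := fmp r b l u) rfl (evR_lc (v := fLp r b l u) rfl (evR_lc (v := fP0 r b l u) rfl (evR_lc (v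 := fP1 r b l u) rfl (evR_lc (v := fPt r b l u) rfl (evR_lc (v := fNx r b l u) rfl (evR_lc (v := fM r b l u) rfl (evR_lc (v := fiS r b l u) rfl (evR_lc (v := fXv r b l u) rfl (evR_lc (v := faq r b l u) rfl (evR_lc (v := ftq r b l u) rfl (evR_lc (v := fx5 r b l u) rfl (evR_lc (v := fy5 r b l u) rfl (evR_lc (v := fAb5 r b l u) rfl (evR_lc (v := fBb5 r b l u) rfl (evR_lc (v := fBq5 r b l u) rfl (evR_lc (v := fLq5 r b l u) rfl (evR_lc (v := fbt5 r b l u) rfl (evR_lc (v := fdn5 r b l u) rfl (evR_lc (v := frhs5 r b l u) rfl (rfl)))))))))))))))))))))))))))))))))))))))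

/-- Value of aa. -/
noncomputable def caa (r b l u : ℝ) : ℝ := (cP0 r b l u * (cPt r b l u)⁻¹)

/-- Value of tt. -/
noncomputable def ctt (r b l u : ℝ) : ℝ := (r * (cPt r b l u * ciS r b l u))

/-- Value of xa. -/
noncomputable def cxa (r b l u : ℝ) : ℝ := (caa r b l u - rv 281475312254976)

/-- Value of ya. -/
noncomputable def cya (r b l u : ℝ) : ℝ := (ctt r b l u - rv 281475089956864)

/-- Value of Aba. -/
noncomputable def cAba (r b l u : ℝ) : ℝ := AbF (cxa r b l u) (cya r b l u)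

/-- Value of NN. -/
noncomputable def cNN (r b l u : ℝ) : ℝ := (cNn r b l u * cNn r b l u)

/-- Value of the program KAu. -/
noncomputable def RKAu (r b l u : ℝ) : ℝ := ((cNN r b l u * cAba r b l u) - (cMt r b l u * (cS r b l u * cS r b l u)))

set_option maxRecDepth 100000 in
theorem evR_KAu (r b l u : ℝ) : Ex.evR KAu [r, b, l, u] = RKAu r b l u :=
  evR_lc (v := ch r b l u) rfl (evR_lc (v := cg r b l u) rfl (evR_lc (v := cg2 r b l u) rfl (evR_lc (v := cg3 r b l u) rfl (evR_lc (v := cg4 r b l u) rfl (evR_lc (v := cg5 r b l u) rfl (evR_lc (v := cg6 r b l u) rfl (evR_lc (v := cg7 r b l u) rfl (evR_lc (v := cg8 r b l u) rfl (evR_lc (v := cg9 r b l u) rfl (evR_lc (v := ch2 r b l u) rfl (evR_lc (v := ch3 r b l u) rfl (evR_lc (v := ch4 r b l u) rfl (evR_lc (v := ch5 r b l u) rfl (evR_lc (v := ch6 r b l u) rfl (evR_lc (v := cMt r b l u) rfl (evR_lc (v := cst r b l u) rfl (evR_lc (v := cts r b l u) rfl (evR_lc (v := cS r b l u) rfl (evR_lc (v := cy0 r b l u) rfl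 (evR_lc (v := cy1 r b l u) rfl (evR_lc (v := cy2 r b l u) rfl (evR_lc (v := cD0 r b l u) rfl (evR_lc (v := cD1 r b l u) rfl (evR_lc (v := cD2 r b l u) rfl (evR_lc (v := cP0 r b l u) rfl (evR_lc (v := cP1 r b l u) rfl (evR_lc (v := cPt r b l u) rfl (evR_lc (v := cn0 r b l u) rfl (evR_lc (v := cn1 r b l u) rfl (evR_lc (v := cn2 r b l u) rfl (evR_lc (v := cNn r b l u) rfl (evR_lc (v := ciS r b l u) rfl (evR_lc (v := caa r b l u) rfl (evR_lc (v := ctt r b l u) rfl (evR_lc (v := cxa r b l u) rfl (evR_lc (v := cya r b l u) rfl (evR_lc (v := cAba r b l u) rfl (evR_lc (v := cNN r b l u) rfl (rfl)))))))))))))))))))))))))))))))))))))))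

/-- Value of Wt. -/
noncomputable def cWt (r b l u : ℝ) : ℝ := ((((((((((((((((rv 281471393529856 * ch3 r b l u) + (rv 281444383129600 * (cg3 r b l u * ch r b l u))) * r) + ((rv 281506593636352 * (cg r b l u * ch2 r b l u)) + (rv 281465148473344 * cg4 r b l u))) * r) + (rv 280934410092544 * (cg2 r b l u * ch r b l u))) * r) + ((rv 280674032287744 * ch2 r b l u) + (rv 281193491464192 * cg3 r b l u))) * r) + (rv 281254932250624 * (cg r b l u * ch r b l u))) * r) + (rv 280948742815744 * cg2 r b l u)) * r) + (rv 280580869586944 * ch r b l u)) * r) + (rv 281520926359552 * cg r b l u))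

/-- Value of Bba. -/
noncomputable def cBba (r b l u : ℝ) : ℝ := BbF (cxa r b l u) (cya r b l u)

/-- Value of Ws. -/
noncomputable def cWs (r b l u : ℝ) : ℝ := (rv 281474977759232 * (cWt r b l u * cS r b l u))

/-- Value of the program KBu. -/
noncomputable def RKBu (r b l u : ℝ) : ℝ := ((cNn r b l u * cBba r b l u) - cWs r b l u)

set_option maxRecDepth 100000 in
theorem evR_KBu (r b l u : ℝ) : Ex.evR KBu [r, b, l, u] = RKBu r b l u :=
  evR_lc (v := ch r b l u) rfl (evR_lc (v := cg r b l u) rfl (evR_lc (v := cg2 r b l u) rfl (evR_lc (v := cg3 r b l u) rfl (evR_lc (v := cg4 r b l u) rfl (evR_lc (v := cg5 r b l u) rfl (evR_lc (v := cg6 r b l u) rfl (evR_lc (v := cg7 r b l u) rfl (evR_lc (v := cg8 r b l u) rfl (evR_lc (v := cg9 r b l u) rfl (evR_lc (v := ch2 r b l u) rfl (evR_lc (v := ch3 r b l u) rfl (evR_lc (v := ch4 r b l u) rfl (evR_lc (v := ch5 r b l u) rfl (evR_lc (v := ch6 r b l u) rfl (evR_lc (v := cMt r b l u) rfl (evR_lc (v := cst r b l u) rfl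 (evR_lc (v := cts r b l u) rfl (evR_lc (v := cS r b l u) rfl (evR_lc (v := cy0 r b l u) rfl (evR_lc (v := cy1 r b l u) rfl (evR_lc (v := cy2 r b l u) rfl (evR_lc (v := cD0 r b l u) rfl (evR_lc (v := cD1 r b l u) rfl (evR_lc (v := cD2 r b l u) rfl (evR_lc (v := cP0 r b l u) rfl (evR_lc (v := cP1 r b l u) rfl (evR_lc (v := cPt r b l u) rfl (evR_lc (v := cn0 r b l u) rfl (evR_lc (v := cn1 r b l u) rfl (evR_lc (v := cn2 r b l u) rfl (evR_lc (v := cNn r b l u) rfl (evR_lc (v := ciS r b l u) rfl (evR_lc (v := cWt r b l u) rfl (evR_lc (v := caa r b l u) rfl (evR_lc (v := ctt r b l u) rfl (evR_lc (v := cxa r b l u) rfl (evR_lc (v := cya r b l u) rfl (evR_lc (v := cBba r b l u) rfl (evR_lc (v := cWs r b l u) rfl (rfl))))))))))))))))))))))))))))))))))))))))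

/-- Value of Hq. -/
noncomputable def cHq (r b l u : ℝ) : ℝ := ((((((((((((((((rv 281474992635904 * ch3 r b l u) + (rv 281475767664640 * (cg3 r b l u * ch r b l u))) * r) + ((rv 281480731033600 * (cg r b l u * ch2 r b l u)) + (rv 281476330356736 * cg4 r b l u))) * r) + (rv 281495063756800 * (cg2 r b l u * ch r b l u))) * r) + ((rv 281496220991488 * ch2 r b l u) + (rv 281488672423936 * cg3 r b l u))) * r) + (rv 281523113426944 * (cg r b l u * ch r b l u))) * r) + (rv 281495000055808 * cg2 r b l u)) * r) + (rv 281496635047936 * ch r b l u)) * r) + (rv 281480667332608 * cg r b l u))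

/-- Value of Hp. -/
noncomputable def cHp (r b l u : ℝ) : ℝ := (((((((((((((((rv 281477392629760 * (cg3 r b l u * ch r b l u)) * r) + ((rv 281496719982592 * (cg r b l u * ch2 r b l u)) + (rv 281479808548864 * cg4 r b l u))) * r) + (rv 281540206526464 * (cg2 r b l u * ch r b l u))) * r) + ((rv 281540206526464 * ch2 r b l u) + (rv 281520879173632 * cg3 r b l u))) * r) + (rv 281648922886144 * (cg r b l u * ch r b l u))) * r) + (rv 281540206526464 * cg2 r b l u)) * r) + (rv 281540206526464 * ch r b l u)) * r) + (rv 281496719982592 * cg r b l u))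

/-- Value of the program KRl. -/
noncomputable def RKRl (r b l u : ℝ) : ℝ := (cHq r b l u - (rv 281475044478496 * cHp r b l u))

set_option maxRecDepth 100000 in
theorem evR_KRl (r b l u : ℝ) : Ex.evR KRl [r, b, l, u] = RKRl r b l u :=
  evR_lc (v := ch r b l u) rfl (evR_lc (v := cg r b l u) rfl (evR_lc (v := cg2 r b l u) rfl (evR_lc (v := cg3 r b l u) rfl (evR_lc (v := cg4 r b l u) rfl (evR_lc (v := cg5 r b l u) rfl (evR_lc (v := cg6 r b l u) rfl (evR_lc (v := cg7 r b l u) rfl (evR_lc (v := cg8 r b l u) rfl (evR_lc (v := cg9 r b l u) rfl (evR_lc (v := ch2 r b l u) rfl (evR_lc (v := ch3 r b l u) rfl (evR_lc (v := ch4 r b l u) rfl (evR_lc (v := ch5 r b l u) rfl (evR_lc (v := ch6 r b l u) rfl (evR_lc (v := cMt r b l u) rfl (evR_lc (v := cst r b l u) rfl (evR_lc (v := cts r b l u) rfl (evR_lc (v := cS r b l u) rfl (evR_lc (v := cy0 r b l u) rfl (evR_lc (v := cy1 r b l u) rfl (evR_lc (v := cy2 r b l u) rfl (evR_lc (v := cD0 r b l u) rfl (evR_lc (v := cD1 r b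 l u) rfl (evR_lc (v := cD2 r b l u) rfl (evR_lc (v := cP0 r b l u) rfl (evR_lc (v := cP1 r b l u) rfl (evR_lc (v := cPt r b l u) rfl (evR_lc (v := cn0 r b l u) rfl (evR_lc (v := cn1 r b l u) rfl (evR_lc (v := cn2 r b l u) rfl (evR_lc (v := cNn r b l u) rfl (evR_lc (v := ciS r b l u) rfl (evR_lc (v := cHq r b l u) rfl (evR_lc (v := cHp r b l u) rfl (rfl)))))))))))))))))))))))))))))))))))

/-- Value of the program KRu. -/
noncomputable def RKRu (r b l u : ℝ) : ℝ := ((rv 281475047938816 * cHp r b l u) - cHq r b l u)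

set_option maxRecDepth 100000 in
theorem evR_KRu (r b l u : ℝ) : Ex.evR KRu [r, b, l, u] = RKRu r b l u :=
  evR_lc (v := ch r b l u) rfl (evR_lc (v := cg r b l u) rfl (evR_lc (v := cg2 r b l u) rfl (evR_lc (v := cg3 r b l u) rfl (evR_lc (v := cg4 r b l u) rfl (evR_lc (v := cg5 r b l u) rfl (evR_lc (v := cg6 r b l u) rfl (evR_lc (v := cg7 r b l u) rfl (evR_lc (v := cg8 r b l u) rfl (evR_lc (v := cg9 r b l u) rfl (evR_lc (v := ch2 r b l u) rfl (evR_lc (v := ch3 r b l u) rfl (evR_lc (v := ch4 r b l u) rfl (evR_lc (v := ch5 r b l u) rfl (evR_lc (v := ch6 r b l u) rfl (evR_lc (v := cMt r b l u) rfl (evR_lc (v := cst r b l u) rfl (evR_lc (v := cts r b l u) rfl (evR_lc (v := cS r b l u) rfl (evR_lc (v := cy0 r b l u) rfl (evR_lc (v := cy1 r b l u) rfl (evR_lc (v := cy2 r b l u) rfl (evR_lc (v := cD0 r b l u) rfl (evR_lc (v := cD1 r b l u) rfl (evR_lc (v := cD2 r b l u) rfl (evR_lc (v := cP0 r b l u) rfl (evR_lc (v := cP1 r b l u) rfl (evR_lc (v := cPt r b l u)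 rfl (evR_lc (v := cn0 r b l u) rfl (evR_lc (v := cn1 r b l u) rfl (evR_lc (v := cn2 r b l u) rfl (evR_lc (v := cNn r b l u) rfl (evR_lc (v := ciS r b l u) rfl (evR_lc (v := cHq r b l u) rfl (evR_lc (v := cHp r b l u) rfl (rfl)))))))))))))))))))))))))))))))))))

/-- Value of the program KXm. -/
noncomputable def RKXm (r b l u : ℝ) : ℝ := ((rv 281475053780992 * cS r b l u) - (r * (r * cHp r b l u)))

set_option maxRecDepth 100000 in
theorem evR_KXm (r b l u : ℝ) : Ex.evR KXm [r, b, l, u] = RKXm r b l u :=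
  evR_lc (v := ch r b l u) rfl (evR_lc (v := cg r b l u) rfl (evR_lc (v := cg2 r b l u) rfl (evR_lc (v := cg3 r b l u) rfl (evR_lc (v := cg4 r b l u) rfl (evR_lc (v := cg5 r b l u) rfl (evR_lc (v := cg6 r b l u) rfl (evR_lc (v := cg7 r b l u) rfl (evR_lc (v := cg8 r b l u) rfl (evR_lc (v := cg9 r b l u) rfl (evR_lc (v := ch2 r b l u) rfl (evR_lc (v := ch3 r b l u) rfl (evR_lc (v := ch4 r b l u) rfl (evR_lc (v := ch5 r b l u) rfl (evR_lc (v := ch6 r b l u) rfl (evR_lc (v := cMt r b l u) rfl (evR_lc (v := cst r b l u) rfl (evR_lc (v := cts r b l u) rfl (evR_lc (v := cS r b l u) rfl (evR_lc (v := cy0 r b l u) rfl (evR_lc (v := cy1 r b l u) rfl (evR_lc (v := cy2 r b l u) rfl (evR_lc (v := cD0 r b l u) rfl (evR_lc (v := cD1 r b l u) rfl (evR_lc (v := cD2 r b l u) rfl (evR_lc (v := cP0 r b l u) rfl (evR_lc (v := cP1 r b l u) rfl (evR_lc (v := cPt r b l u) rfl (evR_lc (v := cn0 r b l u) rfl (evR_lc (v := cn1 r b l u) rfl (evR_lc (v := cn2 r b l u) rfl (evR_lc (v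 := cNn r b l u) rfl (evR_lc (v := ciS r b l u) rfl (evR_lc (v := cHq r b l u) rfl (evR_lc (v := cHp r b l u) rfl (rfl)))))))))))))))))))))))))))))))))))

/-- Value of w. -/
noncomputable def nw (r b l u : ℝ) : ℝ := (rv 281491351273472 - (rv 281492892614656 * b))

/-- Value of r2. -/
noncomputable def nr2 (r b l u : ℝ) : ℝ := (b * b)

/-- Value of yy. -/
noncomputable def nyy (r b l u : ℝ) : ℝ := (b * r)

/-- Value of wx3. -/
noncomputable def nwx3 (r b l u : ℝ) : ℝ := (((rv 281475245146112 - r) * rv 281475245146112) + rv 281475513581568)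

/-- Value of wy3. -/
noncomputable def nwy3 (r b l u : ℝ) : ℝ := (((rv 281475245146112 - nyy r b l u) * rv 281475245146112) + rv 281475513581568)

/-- Value of the program KC3. -/
noncomputable def RKC3 (r b l u : ℝ) : ℝ := ((rv 281475321181696 * (nw r b l u * nw r b l u)) - ((rv 281475245146112 + (rv 281475106209792 * (r * nw r b l u))) * ((rv 281491351273472 * nwx3 r b l u) - (rv 281495361028096 * (nr2 r b l u * nwy3 r b l u)))))

set_option maxRecDepth 100000 in
theorem evR_KC3 (r b l u : ℝ) : Ex.evR KC3 [r, b, l, u] = RKC3 r b l u :=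
  evR_lc (v := nw r b l u) rfl (evR_lc (v := nr2 r b l u) rfl (evR_lc (v := nyy r b l u) rfl (evR_lc (v := nwx3 r b l u) rfl (evR_lc (v := nwy3 r b l u) rfl (rfl)))))

/-- Value of wx4. -/
noncomputable def nwx4 (r b l u : ℝ) : ℝ := (((rv 281475245146112 - r) * nwx3 r b l u) + rv 281475782017024)

/-- Value of wy4. -/
noncomputable def nwy4 (r b l u : ℝ) : ℝ := (((rv 281475245146112 - nyy r b l u) * nwy3 r b l u) + rv 281475782017024)

/-- Value of the program KC4. -/
noncomputable def RKC4 (r b l u : ℝ) : ℝ := ((rv 281475665652736 * (nw r b l u * nw r b l u)) - ((rv 281475245146112 + (rv 281475214737408 * (r * nw r b l u))) * ((rv 281491351273472 * nwx4 r b l u) - (rv 281495361028096 * (nr2 r b l u * nwy4 r b l u)))))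

set_option maxRecDepth 100000 in
theorem evR_KC4 (r b l u : ℝ) : Ex.evR KC4 [r, b, l, u] = RKC4 r b l u :=
  evR_lc (v := nw r b l u) rfl (evR_lc (v := nr2 r b l u) rfl (evR_lc (v := nyy r b l u) rfl (evR_lc (v := nwx3 r b l u) rfl (evR_lc (v := nwx4 r b l u) rfl (evR_lc (v := nwy3 r b l u) rfl (evR_lc (v := nwy4 r b l u) rfl (rfl)))))))

/-- Value of wx5. -/
noncomputable def nwx5 (r b l u : ℝ) : ℝ := (((rv 281475245146112 - r) * nwx4 r b l u) + rv 281476050452480)

/-- Value of wy5. -/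
noncomputable def nwy5 (r b l u : ℝ) : ℝ := (((rv 281475245146112 - nyy r b l u) * nwy4 r b l u) + rv 281476050452480)

/-- Value of the program KC5. -/
noncomputable def RKC5 (r b l u : ℝ) : ℝ := ((rv 281476124947456 * (nw r b l u * nw r b l u)) - ((rv 281475245146112 + (rv 281475323265024 * (r * nw r b l u))) * ((rv 281491351273472 * nwx5 r b l u) - (rv 281495361028096 * (nr2 r b l u * nwy5 r b l u)))))

set_option maxRecDepth 100000 in
theorem evR_KC5 (r b l u : ℝ) : Ex.evR KC5 [r, b, l, u] = RKC5 r b l u :=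
  evR_lc (v := nw r b l u) rfl (evR_lc (v := nr2 r b l u) rfl (evR_lc (v := nyy r b l u) rfl (evR_lc (v := nwx3 r b l u) rfl (evR_lc (v := nwx4 r b l u) rfl (evR_lc (v := nwx5 r b l u) rfl (evR_lc (v := nwy3 r b l u) rfl (evR_lc (v := nwy4 r b l u) rfl (evR_lc (v := nwy5 r b l u) rfl (rfl)))))))))

/-- Value of wx6. -/
noncomputable def nwx6 (r b l u : ℝ) : ℝ := (((rv 281475245146112 - r) * nwx5 r b l u) + rv 281476318887936)

/-- Value of wy6. -/
noncomputable def nwy6 (r b l u : ℝ) : ℝ := (((rv 281475245146112 - nyy r b l u) * nwy5 r b l u) + rv 281476318887936)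

/-- Value of the program KC6. -/
noncomputable def RKC6 (r b l u : ℝ) : ℝ := ((rv 281476699065856 * (nw r b l u * nw r b l u)) - ((rv 281475245146112 + (rv 281475431792640 * (r * nw r b l u))) * ((rv 281491351273472 * nwx6 r b l u) - (rv 281495361028096 * (nr2 r b l u * nwy6 r b l u)))))

set_option maxRecDepth 100000 in
theorem evR_KC6 (r b l u : ℝ) : Ex.evR KC6 [r, b, l, u] = RKC6 r b l u :=
  evR_lc (v := nw r b l u) rfl (evR_lc (v := nr2 r b l u) rfl (evR_lc (v := nyy r b l u) rfl (evR_lc (v := nwx3 r b l u) rfl (evR_lc (v := nwx4 r b l u) rfl (evR_lc (v := nwx5 r b l u) rfl (evR_lc (v := nwx6 r b l u) rfl (evR_lc (v := nwy3 r b l u) rfl (evR_lc (v := nwy4 r b l u) rfl (evR_lc (v := nwy5 r b l u) rfl (evR_lc (v := nwy6 r b l u) rfl (rfl)))))))))))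

/-- Value of wx7. -/
noncomputable def nwx7 (r b l u : ℝ) : ℝ := (((rv 281475245146112 - r) * nwx6 r b l u) + rv 281476587323392)

/-- Value of wy7. -/
noncomputable def nwy7 (r b l u : ℝ) : ℝ := (((rv 281475245146112 - nyy r b l u) * nwy6 r b l u) + rv 281476587323392)

/-- Value of the program KC7. -/
noncomputable def RKC7 (r b l u : ℝ) : ℝ := ((rv 281477388007936 * (nw r b l u * nw r b l u)) - ((rv 281475245146112 + (rv 281475540320256 * (r * nw r b l u))) * ((rv 281491351273472 * nwx7 r b l u) - (rv 281495361028096 * (nr2 r b l u * nwy7 r b l u)))))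

set_option maxRecDepth 100000 in
theorem evR_KC7 (r b l u : ℝ) : Ex.evR KC7 [r, b, l, u] = RKC7 r b l u :=
  evR_lc (v := nw r b l u) rfl (evR_lc (v := nr2 r b l u) rfl (evR_lc (v := nyy r b l u) rfl (evR_lc (v := nwx3 r b l u) rfl (evR_lc (v := nwx4 r b l u) rfl (evR_lc (v := nwx5 r b l u) rfl (evR_lc (v := nwx6 r b l u) rfl (evR_lc (v := nwx7 r b l u) rfl (evR_lc (v := nwy3 r b l u) rfl (evR_lc (v := nwy4 r b l u) rfl (evR_lc (v := nwy5 r b l u) rfl (evR_lc (v := nwy6 r b l u) rfl (evR_lc (v := nwy7 r b l u) rfl (rfl)))))))))))))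

/-- Value of wx8. -/
noncomputable def nwx8 (r b l u : ℝ) : ℝ := (((rv 281475245146112 - r) * nwx7 r b l u) + rv 281476855758848)

/-- Value of wy8. -/
noncomputable def nwy8 (r b l u : ℝ) : ℝ := (((rv 281475245146112 - nyy r b l u) * nwy7 r b l u) + rv 281476855758848)

/-- Value of the program KC8. -/
noncomputable def RKC8 (r b l u : ℝ) : ℝ := ((rv 281478191773696 * (nw r b l u * nw r b l u)) - ((rv 281475245146112 + (rv 281475648847872 * (r * nw r b l u))) * ((rv 281491351273472 * nwx8 r b l u) - (rv 281495361028096 * (nr2 r b l u * nwy8 r b l u)))))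

set_option maxRecDepth 100000 in
theorem evR_KC8 (r b l u : ℝ) : Ex.evR KC8 [r, b, l, u] = RKC8 r b l u :=
  evR_lc (v := nw r b l u) rfl (evR_lc (v := nr2 r b l u) rfl (evR_lc (v := nyy r b l u) rfl (evR_lc (v := nwx3 r b l u) rfl (evR_lc (v := nwx4 r b l u) rfl (evR_lc (v := nwx5 r b l u) rfl (evR_lc (v := nwx6 r b l u) rfl (evR_lc (v := nwx7 r b l u) rfl (evR_lc (v := nwx8 r b l u) rfl (evR_lc (v := nwy3 r b l u) rfl (evR_lc (v := nwy4 r b l u) rfl (evR_lc (v := nwy5 r b l u) rfl (evR_lc (v := nwy6 r b l u) rfl (evR_lc (v := nwy7 r b l u) rfl (evR_lc (v := nwy8 r b l u) rfl (rfl)))))))))))))))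

/-- Value of wx9. -/
noncomputable def nwx9 (r b l u : ℝ) : ℝ := (((rv 281475245146112 - r) * nwx8 r b l u) + rv 281477124194304)

/-- Value of wy9. -/
noncomputable def nwy9 (r b l u : ℝ) : ℝ := (((rv 281475245146112 - nyy r b l u) * nwy8 r b l u) + rv 281477124194304)

/-- Value of the program KC9. -/
noncomputable def RKC9 (r b l u : ℝ) : ℝ := ((rv 281479110363136 * (nw r b l u * nw r b l u)) - ((rv 281475245146112 + (rv 281475757375488 * (r * nw r b l u))) * ((rv 281491351273472 * nwx9 r b l u) - (rv 281495361028096 * (nr2 r b l u * nwy9 r b l u)))))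

set_option maxRecDepth 100000 in
theorem evR_KC9 (r b l u : ℝ) : Ex.evR KC9 [r, b, l, u] = RKC9 r b l u :=
  evR_lc (v := nw r b l u) rfl (evR_lc (v := nr2 r b l u) rfl (evR_lc (v := nyy r b l u) rfl (evR_lc (v := nwx3 r b l u) rfl (evR_lc (v := nwx4 r b l u) rfl (evR_lc (v := nwx5 r b l u) rfl (evR_lc (v := nwx6 r b l u) rfl (evR_lc (v := nwx7 r b l u) rfl (evR_lc (v := nwx8 r b l u) rfl (evR_lc (v := nwx9 r b l u) rfl (evR_lc (v := nwy3 r b l u) rfl (evR_lc (v := nwy4 r b l u) rfl (evR_lc (v := nwy5 r b l u) rfl (evR_lc (v := nwy6 r b l u) rfl (evR_lc (v := nwy7 r b l u) rfl (evR_lc (v := nwy8 r b l u) rfl (evR_lc (v := nwy9 r b l u) rfl (rfl)))))))))))))))))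

/-- Value of wx10. -/
noncomputable def nwx10 (r b l u : ℝ) : ℝ := (((rv 281475245146112 - r) * nwx9 r b l u) + rv 281477392629760)

/-- Value of wy10. -/
noncomputable def nwy10 (r b l u : ℝ) : ℝ := (((rv 281475245146112 - nyy r b l u) * nwy9 r b l u) + rv 281477392629760)

/-- Value of the program KC10. -/
noncomputable def RKC10 (r b l u : ℝ) : ℝ := ((rv 281480143776256 * (nw r b l u * nw r b l u)) - ((rv 281475245146112 + (rv 281475865903104 * (r * nw r b l u))) * ((rv 281491351273472 * nwx10 r b l u) - (rv 281495361028096 * (nr2 r b l u * nwy10 r b l u)))))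

set_option maxRecDepth 100000 in
theorem evR_KC10 (r b l u : ℝ) : Ex.evR KC10 [r, b, l, u] = RKC10 r b l u :=
  evR_lc (v := nw r b l u) rfl (evR_lc (v := nr2 r b l u) rfl (evR_lc (v := nyy r b l u) rfl (evR_lc (v := nwx3 r b l u) rfl (evR_lc (v := nwx4 r b l u) rfl (evR_lc (v := nwx5 r b l u) rfl (evR_lc (v := nwx6 r b l u) rfl (evR_lc (v := nwx7 r b l u) rfl (evR_lc (v := nwx8 r b l u) rfl (evR_lc (v := nwx9 r b l u) rfl (evR_lc (v := nwx10 r b l u) rfl (evR_lc (v := nwy3 r b l u) rfl (evR_lc (v := nwy4 r b l u) rfl (evR_lc (v := nwy5 r b l u) rfl (evR_lc (v := nwy6 r b l u) rfl (evR_lc (v := nwy7 r b l u) rfl (evR_lc (v := nwy8 r b l u) rfl (evR_lc (v := nwy9 r b l u) rfl (evR_lc (v := nwy10 r b l u) rfl (rfl)))))))))))))))))))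

/-- Value of wx11. -/
noncomputable def nwx11 (r b l u : ℝ) : ℝ := (((rv 281475245146112 - r) * nwx10 r b l u) + rv 281477661065216)

/-- Value of wy11. -/
noncomputable def nwy11 (r b l u : ℝ) : ℝ := (((rv 281475245146112 - nyy r b l u) * nwy10 r b l u) + rv 281477661065216)

/-- Value of the program KC11. -/
noncomputable def RKC11 (r b l u : ℝ) : ℝ := ((rv 281481292013056 * (nw r b l u * nw r b l u)) - ((rv 281475245146112 + (rv 281475974430720 * (r * nw r b l u))) * ((rv 281491351273472 * nwx11 r b l u) - (rv 281495361028096 * (nr2 r b l u * nwy11 r b l u)))))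

set_option maxRecDepth 100000 in
theorem evR_KC11 (r b l u : ℝ) : Ex.evR KC11 [r, b, l, u] = RKC11 r b l u :=
  evR_lc (v := nw r b l u) rfl (evR_lc (v := nr2 r b l u) rfl (evR_lc (v := nyy r b l u) rfl (evR_lc (v := nwx3 r b l u) rfl (evR_lc (v := nwx4 r b l u) rfl (evR_lc (v := nwx5 r b l u) rfl (evR_lc (v := nwx6 r b l u) rfl (evR_lc (v := nwx7 r b l u) rfl (evR_lc (v := nwx8 r b l u) rfl (evR_lc (v := nwx9 r b l u) rfl (evR_lc (v := nwx10 r b l u) rfl (evR_lc (v := nwx11 r b l u) rfl (evR_lc (v := nwy3 r b l u) rfl (evR_lc (v := nwy4 r b l u) rfl (evR_lc (v := nwy5 r b l u) rfl (evR_lc (v := nwy6 r b l u) rfl (evR_lc (v := nwy7 r b l u) rfl (evR_lc (v := nwy8 r b l u) rfl (evR_lc (v := nwy9 r b l u) rfl (evR_lc (v := nwy10 r b l u) rfl (evR_lc (v := nwy11 r b l u) rfl (rfl)))))))))))))))))))))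

/-- Value of wx12. -/
noncomputable def nwx12 (r b l u : ℝ) : ℝ := (((rv 281475245146112 - r) * nwx11 r b l u) + rv 281477929500672)

/-- Value of wy12. -/
noncomputable def nwy12 (r b l u : ℝ) : ℝ := (((rv 281475245146112 - nyy r b l u) * nwy11 r b l u) + rv 281477929500672)

/-- Value of the program KC12. -/
noncomputable def RKC12 (r b l u : ℝ) : ℝ := ((rv 281482555073536 * (nw r b l u * nw r b l u)) - ((rv 281475245146112 + (rv 281476082958336 * (r * nw r b l u))) * ((rv 281491351273472 * nwx12 r b l u) - (rv 281495361028096 * (nr2 r b l u * nwy12 r b l u)))))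

set_option maxRecDepth 100000 in
theorem evR_KC12 (r b l u : ℝ) : Ex.evR KC12 [r, b, l, u] = RKC12 r b l u :=
  evR_lc (v := nw r b l u) rfl (evR_lc (v := nr2 r b l u) rfl (evR_lc (v := nyy r b l u) rfl (evR_lc (v := nwx3 r b l u) rfl (evR_lc (v := nwx4 r b l u) rfl (evR_lc (v := nwx5 r b l u) rfl (evR_lc (v := nwx6 r b l u) rfl (evR_lc (v := nwx7 r b l u) rfl (evR_lc (v := nwx8 r b l u) rfl (evR_lc (v := nwx9 r b l u) rfl (evR_lc (v := nwx10 r b l u) rfl (evR_lc (v := nwx11 r b l u) rfl (evR_lc (v := nwx12 r b l u) rfl (evR_lc (v := nwy3 r b l u) rfl (evR_lc (v := nwy4 r b l u) rfl (evR_lc (v := nwy5 r b l u) rfl (evR_lc (v := nwy6 r b l u) rfl (evR_lc (v := nwy7 r b l u) rfl (evR_lc (v := nwy8 r b l u) rfl (evR_lc (v := nwy9 r b l u) rfl (evR_lc (v := nwy10 r b l u) rfl (evR_lc (v := nwy11 r b l u) rfl (evR_lc (v := nwy12 r b l u) rfl (rfl)))))))))))))))))))))))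

/-- Value of wx13. -/
noncomputable def nwx13 (r b l u : ℝ) : ℝ := (((rv 281475245146112 - r) * nwx12 r b l u) + rv 281478197936128)

/-- Value of wy13. -/
noncomputable def nwy13 (r b l u : ℝ) : ℝ := (((rv 281475245146112 - nyy r b l u) * nwy12 r b l u) + rv 281478197936128)

/-- Value of the program KC13. -/
noncomputable def RKC13 (r b l u : ℝ) : ℝ := ((rv 281483932957696 * (nw r b l u * nw r b l u)) - ((rv 281475245146112 + (rv 281476191485952 * (r * nw r b l u))) * ((rv 281491351273472 * nwx13 r b l u) - (rv 281495361028096 * (nr2 r b l u * nwy13 r b l u)))))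

set_option maxRecDepth 100000 in
theorem evR_KC13 (r b l u : ℝ) : Ex.evR KC13 [r, b, l, u] = RKC13 r b l u :=
  evR_lc (v := nw r b l u) rfl (evR_lc (v := nr2 r b l u) rfl (evR_lc (v := nyy r b l u) rfl (evR_lc (v := nwx3 r b l u) rfl (evR_lc (v := nwx4 r b l u) rfl (evR_lc (v := nwx5 r b l u) rfl (evR_lc (v := nwx6 r b l u) rfl (evR_lc (v := nwx7 r b l u) rfl (evR_lc (v := nwx8 r b l u) rfl (evR_lc (v := nwx9 r b l u) rfl (evR_lc (v := nwx10 r b l u) rfl (evR_lc (v := nwx11 r b l u) rfl (evR_lc (v := nwx12 r b l u) rfl (evR_lc (v := nwx13 r b l u) rfl (evR_lc (v := nwy3 r b l u) rfl (evR_lc (v := nwy4 r b l u) rfl (evR_lc (v := nwy5 r b l u) rfl (evR_lc (v := nwy6 r b l u) rfl (evR_lc (v := nwy7 r b l u) rfl (evR_lc (v := nwy8 r b l u) rfl (evR_lc (v := nwy9 r b l u) rfl (evR_lc (v := nwy10 r b l u) rfl (evR_lc (v := nwy11 r b l u) rfl (evR_lc (v := nwy12 r b l u) rfl (evR_lc (v := nwy13 r b l u) rfl (rfl)))))))))))))))))))))))))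

/-- Value of wx14. -/
noncomputable def nwx14 (r b l u : ℝ) : ℝ := (((rv 281475245146112 - r) * nwx13 r b l u) + rv 281478466371584)

/-- Value of wy14. -/
noncomputable def nwy14 (r b l u : ℝ) : ℝ := (((rv 281475245146112 - nyy r b l u) * nwy13 r b l u) + rv 281478466371584)

/-- Value of the program KC14. -/
noncomputable def RKC14 (r b l u : ℝ) : ℝ := ((rv 281485425665536 * (nw r b l u * nw r b l u)) - ((rv 281475245146112 + (rv 281476300013568 * (r * nw r b l u))) * ((rv 281491351273472 * nwx14 r b l u) - (rv 281495361028096 * (nr2 r b l u * nwy14 r b l u)))))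

set_option maxRecDepth 100000 in
theorem evR_KC14 (r b l u : ℝ) : Ex.evR KC14 [r, b, l, u] = RKC14 r b l u :=
  evR_lc (v := nw r b l u) rfl (evR_lc (v := nr2 r b l u) rfl (evR_lc (v := nyy r b l u) rfl (evR_lc (v := nwx3 r b l u) rfl (evR_lc (v := nwx4 r b l u) rfl (evR_lc (v := nwx5 r b l u) rfl (evR_lc (v := nwx6 r b l u) rfl (evR_lc (v := nwx7 r b l u) rfl (evR_lc (v := nwx8 r b l u) rfl (evR_lc (v := nwx9 r b l u) rfl (evR_lc (v := nwx10 r b l u) rfl (evR_lc (v := nwx11 r b l u) rfl (evR_lc (v := nwx12 r b l u) rfl (evR_lc (v := nwx13 r b l u) rfl (evR_lc (v := nwx14 r b l u) rfl (evR_lc (v := nwy3 r b l u) rfl (evR_lc (v := nwy4 r b l u) rfl (evR_lc (v := nwy5 r b l u) rfl (evR_lc (v := nwy6 r b l u) rfl (evR_lc (v := nwy7 r b l u) rfl (evR_lc (v := nwy8 r b l u) rfl (evR_lc (v := nwy9 r b l u) rfl (evR_lc (v := nwy10 r b l u) rfl (evR_lc (v := nwy11 r b l u) rfl (evR_lc (v := nwy12 r b l u) rfl (evR_lc (v := nwy13 r b l u) rfl (evR_lc (v := nwy14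 r b l u) rfl (rfl)))))))))))))))))))))))))))

/-- Value of wx15. -/
noncomputable def nwx15 (r b l u : ℝ) : ℝ := (((rv 281475245146112 - r) * nwx14 r b l u) + rv 281478734807040)

/-- Value of wy15. -/
noncomputable def nwy15 (r b l u : ℝ) : ℝ := (((rv 281475245146112 - nyy r b l u) * nwy14 r b l u) + rv 281478734807040)

/-- Value of the program KC15. -/
noncomputable def RKC15 (r b l u : ℝ) : ℝ := ((rv 281487033197056 * (nw r b l u * nw r b l u)) - ((rv 281475245146112 + (rv 281476408541184 * (r * nw r b l u))) * ((rv 281491351273472 * nwx15 r b l u) - (rv 281495361028096 * (nr2 r b l u * nwy15 r b l u)))))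

set_option maxRecDepth 100000 in
theorem evR_KC15 (r b l u : ℝ) : Ex.evR KC15 [r, b, l, u] = RKC15 r b l u :=
  evR_lc (v := nw r b l u) rfl (evR_lc (v := nr2 r b l u) rfl (evR_lc (v := nyy r b l u) rfl (evR_lc (v := nwx3 r b l u) rfl (evR_lc (v := nwx4 r b l u) rfl (evR_lc (v := nwx5 r b l u) rfl (evR_lc (v := nwx6 r b l u) rfl (evR_lc (v := nwx7 r b l u) rfl (evR_lc (v := nwx8 r b l u) rfl (evR_lc (v := nwx9 r b l u) rfl (evR_lc (v := nwx10 r b l u) rfl (evR_lc (v := nwx11 r b l u) rfl (evR_lc (v := nwx12 r b l u) rfl (evR_lc (v := nwx13 r b l u) rfl (evR_lc (v := nwx14 r b l u) rfl (evR_lc (v := nwx15 r b l u) rfl (evR_lc (v := nwy3 r b l u) rfl (evR_lc (v := nwy4 r b l u) rfl (evR_lc (v := nwy5 r b l u) rfl (evR_lc (v := nwy6 r b l u) rfl (evR_lc (v := nwy7 r b l u) rfl (evR_lc (v := nwy8 r b l u) rfl (evR_lc (v := nwy9 r b l u) rfl (evR_lc (v := nwy10 r b l u) rfl (evR_lc (v := nwy11 r b l u) rfl (evR_lc (v := nwy12 r b l u) rfl (evR_lc (v := nwy13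 r b l u) rfl (evR_lc (v := nwy14 r b l u) rfl (evR_lc (v := nwy15 r b l u) rfl (rfl)))))))))))))))))))))))))))))

/-- Value of wx16. -/
noncomputable def nwx16 (r b l u : ℝ) : ℝ := (((rv 281475245146112 - r) * nwx15 r b l u) + rv 281479003242496)

/-- Value of wy16. -/
noncomputable def nwy16 (r b l u : ℝ) : ℝ := (((rv 281475245146112 - nyy r b l u) * nwy15 r b l u) + rv 281479003242496)

/-- Value of the program KC16. -/
noncomputable def RKC16 (r b l u : ℝ) : ℝ := ((rv 281488755552256 * (nw r b l u * nw r b l u)) - ((rv 281475245146112 + (rv 281476517068800 * (r * nw r b l u))) * ((rv 281491351273472 * nwx16 r b l u) - (rv 281495361028096 * (nr2 r b l u * nwy16 r b l u)))))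

set_option maxRecDepth 100000 in
theorem evR_KC16 (r b l u : ℝ) : Ex.evR KC16 [r, b, l, u] = RKC16 r b l u :=
  evR_lc (v := nw r b l u) rfl (evR_lc (v := nr2 r b l u) rfl (evR_lc (v := nyy r b l u) rfl (evR_lc (v := nwx3 r b l u) rfl (evR_lc (v := nwx4 r b l u) rfl (evR_lc (v := nwx5 r b l u) rfl (evR_lc (v := nwx6 r b l u) rfl (evR_lc (v := nwx7 r b l u) rfl (evR_lc (v := nwx8 r b l u) rfl (evR_lc (v := nwx9 r b l u) rfl (evR_lc (v := nwx10 r b l u) rfl (evR_lc (v := nwx11 r b l u) rfl (evR_lc (v := nwx12 r b l u) rfl (evR_lc (v := nwx13 r b l u) rfl (evR_lc (v := nwx14 r b l u) rfl (evR_lc (v := nwx15 r b l u) rfl (evR_lc (v := nwx16 r b l u) rfl (evR_lc (v := nwy3 r b l u) rfl (evR_lc (v := nwy4 r b l u) rfl (evR_lc (v := nwy5 r b l u) rfl (evR_lc (v := nwy6 r b l u) rfl (evR_lc (v := nwy7 r b l u) rfl (evR_lc (v := nwy8 r b l u) rfl (evR_lc (v := nwy9 r b l u) rfl (evR_lc (v := nwy10 r b l u) rfl (evR_lc (v := nwy11 r b l u) rfl (evR_lc (v := nwy12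 r b l u) rfl (evR_lc (v := nwy13 r b l u) rfl (evR_lc (v := nwy14 r b l u) rfl (evR_lc (v := nwy15 r b l u) rfl (evR_lc (v := nwy16 r b l u) rfl (rfl)))))))))))))))))))))))))))))))

set_option maxRecDepth 100000 in
theorem evR_gsA0 (r b l u : ℝ) : Ex.evR (nthEx gsA 0) [r, b, l, u] = ((rv 281475110928384 * cS r b l u) - (r * cP0 r b l u)) :=
  evR_lc (v := ch r b l u) rfl (evR_lc (v := cg r b l u) rfl (evR_lc (v := cg2 r b l u) rfl (evR_lc (v := cg3 r b l u) rfl (evR_lc (v := cg4 r b l u) rfl (evR_lc (v := cg5 r b l u) rfl (evR_lc (v := cg6 r b l u) rfl (evR_lc (v := cg7 r b l u) rfl (evR_lc (v := cg8 r b l u) rfl (evR_lc (v := cg9 r b l u) rfl (evR_lc (v := ch2 r b l u) rfl (evR_lc (v := ch3 r b l u) rfl (evR_lc (v := ch4 r b l u) rfl (evR_lc (v := ch5 r b l u) rfl (evR_lc (v := ch6 r b l u) rfl (evR_lc (v := cMt r b l u) rfl (evR_lc (v := cst r b l u) rfl (evR_lc (v := cts r b l u) rfl (evR_lc (v := cS r b l u) rfl (evR_lc (v := cy0 r b l u) rfl (evR_lc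 (v := cy1 r b l u) rfl (evR_lc (v := cy2 r b l u) rfl (evR_lc (v := cD0 r b l u) rfl (evR_lc (v := cD1 r b l u) rfl (evR_lc (v := cD2 r b l u) rfl (evR_lc (v := cP0 r b l u) rfl (evR_lc (v := cP1 r b l u) rfl (evR_lc (v := cPt r b l u) rfl (evR_lc (v := cn0 r b l u) rfl (evR_lc (v := cn1 r b l u) rfl (evR_lc (v := cn2 r b l u) rfl (evR_lc (v := cNn r b l u) rfl (evR_lc (v := ciS r b l u) rfl (rfl)))))))))))))))))))))))))))))))))

set_option maxRecDepth 100000 in
theorem evR_gsA1 (r b l u : ℝ) : Ex.evR (nthEx gsA 1) [r, b, l, u] = ((rv 281475203203072 * cS r b l u) - (r * cPt r b l u)) :=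
  evR_lc (v := ch r b l u) rfl (evR_lc (v := cg r b l u) rfl (evR_lc (v := cg2 r b l u) rfl (evR_lc (v := cg3 r b l u) rfl (evR_lc (v := cg4 r b l u) rfl (evR_lc (v := cg5 r b l u) rfl (evR_lc (v := cg6 r b l u) rfl (evR_lc (v := cg7 r b l u) rfl (evR_lc (v := cg8 r b l u) rfl (evR_lc (v := cg9 r b l u) rfl (evR_lc (v := ch2 r b l u) rfl (evR_lc (v := ch3 r b l u) rfl (evR_lc (v := ch4 r b l u) rfl (evR_lc (v := ch5 r b l u) rfl (evR_lc (v := ch6 r b l u) rfl (evR_lc (v := cMt r b l u) rfl (evR_lc (v := cst r b l u) rfl (evR_lc (v := cts r b l u) rfl (evR_lc (v := cS r b l u) rfl (evR_lc (v := cy0 r b l u) rfl (evR_lc (v := cy1 r b l u) rfl (evR_lc (v := cy2 r b l u) rfl (evR_lc (v := cD0 r b l u) rfl (evR_lc (v := cD1 r b l u) rfl (evR_lc (v := cD2 r b l u) rfl (evR_lc (v := cP0 r b l u) rfl (evR_lc (v := cP1 r b l u) rfl (evR_lc (v := cPt r b l u) rfl (evR_lc (v := cn0 r b l u) rfl (evR_lc (v := cn1 r b l u) rfl (evR_lc (v := cn2 r b l u) rfl (evR_lc (v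 := cNn r b l u) rfl (evR_lc (v := ciS r b l u) rfl (rfl)))))))))))))))))))))))))))))))))

set_option maxRecDepth 100000 in
theorem evR_gsL0 (r b l u : ℝ) : Ex.evR (nthEx gsL 0) [r, b, l, u] = ((rv 281475086336000 * cS r b l u) - (r * cP0 r b l u)) :=
  evR_lc (v := ch r b l u) rfl (evR_lc (v := cg r b l u) rfl (evR_lc (v := cg2 r b l u) rfl (evR_lc (v := cg3 r b l u) rfl (evR_lc (v := cg4 r b l u) rfl (evR_lc (v := cg5 r b l u) rfl (evR_lc (v := cg6 r b l u) rfl (evR_lc (v := cg7 r b l u) rfl (evR_lc (v := cg8 r b l u) rfl (evR_lc (v := cg9 r b l u) rfl (evR_lc (v := ch2 r b l u) rfl (evR_lc (v := ch3 r b l u) rfl (evR_lc (v := ch4 r b l u) rfl (evR_lc (v := ch5 r b l u) rfl (evR_lc (v := ch6 r b l u) rfl (evR_lc (v := cMt r b l u) rfl (evR_lc (v := cst r b l u) rfl (evR_lc (v := cts r b l u) rfl (evR_lc (v := cS r b l u) rfl (evR_lc (v := cy0 r b l u) rfl (evR_lc (v := cy1 r b l u) rfl (evR_lc (v := cy2 r b l u) rfl (evR_lc (v := cD0 r b l u) rfl (evR_lc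 (v := cD1 r b l u) rfl (evR_lc (v := cD2 r b l u) rfl (evR_lc (v := cP0 r b l u) rfl (evR_lc (v := cP1 r b l u) rfl (evR_lc (v := cPt r b l u) rfl (evR_lc (v := cn0 r b l u) rfl (evR_lc (v := cn1 r b l u) rfl (evR_lc (v := cn2 r b l u) rfl (evR_lc (v := cNn r b l u) rfl (evR_lc (v := ciS r b l u) rfl (rfl)))))))))))))))))))))))))))))))))

set_option maxRecDepth 100000 in
theorem evR_gsL1 (r b l u : ℝ) : Ex.evR (nthEx gsL 1) [r, b, l, u] = ((rv 281475195961344 * cS r b l u) - (r * cPt r b l u)) :=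
  evR_lc (v := ch r b l u) rfl (evR_lc (v := cg r b l u) rfl (evR_lc (v := cg2 r b l u) rfl (evR_lc (v := cg3 r b l u) rfl (evR_lc (v := cg4 r b l u) rfl (evR_lc (v := cg5 r b l u) rfl (evR_lc (v := cg6 r b l u) rfl (evR_lc (v := cg7 r b l u) rfl (evR_lc (v := cg8 r b l u) rfl (evR_lc (v := cg9 r b l u) rfl (evR_lc (v := ch2 r b l u) rfl (evR_lc (v := ch3 r b l u) rfl (evR_lc (v := ch4 r b l u) rfl (evR_lc (v := ch5 r b l u) rfl (evR_lc (v := ch6 r b l u) rfl (evR_lc (v := cMt r b l u) rfl (evR_lc (v := cst r b l u) rfl (evR_lc (v := cts r b l u) rfl (evR_lc (v := cS r b l u) rfl (evR_lc (v := cy0 r b l u) rfl (evR_lc (v := cy1 r b l u) rfl (evR_lc (v := cy2 r b l u) rfl (evR_lc (v := cD0 r b l u) rfl (evR_lc (v := cD1 r b l u) rfl (evR_lc (v := cD2 r b l u) rfl (evR_lc (v := cP0 r b l u) rfl (evR_lc (v := cP1 r b l u) rfl (evR_lc (v := cPt r b l u) rfl (evR_lc (v := cn0 r b l u) rfl (evR_lc (v := cn1 r b l u) rfl (evR_lc (v := cn2 r b l u) rfl (evR_lc (v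 := cNn r b l u) rfl (evR_lc (v := ciS r b l u) rfl (rfl)))))))))))))))))))))))))))))))))

end SN

end Vale.Agent.Lib.P154
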